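import Vale.Agent.P329.Metabelian
import Vale.Agent.P329.Marked

namespace Vale.Agent.Results.P329.MetabelianElemP

open Vale.Agent.P329

/-- Height at most one for (1) finite groups that are subdirect products of abelian-by-(elementary
abelian) groups and (2) counting, in a finite abelian group, positions marked by their prefix value
in a finite aperiodic monoid, their letter, and their suffix value; (3) in general such counting costs one more star. -/
theorem result :
    (∀ {α : Type} [Finite α] {G : Type} [Group G] [Finite G] {ι : Type} [Finite ι]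
      (p : ι → ℕ), (∀ i, (p i).Prime) → ∀ (K N : ι → Subgroup G) [∀ i, (K i).Normal]
      [∀ i, (N i).Normal], (∀ g : G, (∀ i, g ∈ K i) → g = 1) →
      (∀ i, ∀ a ∈ N i, ∀ b ∈ N i, a * b * a⁻¹ * b⁻¹ ∈ K i) →
      (∀ i, ∀ a b : G, a * b * a⁻¹ * b⁻¹ ∈ N i) → (∀ i, ∀ a : G, a ^ p i ∈ N i) →
      ∀ (f : α → G) (S : Set G), HLE (lset fun w => (w.map f).prod ∈ S) 1) ∧
    (∀ {α : Type} [Finite α] {T M : Type} [Monoid T] [Finite T] [CommGroup M] [Finite M],
      Aperiodic T → ∀ (f : α → T) (g : T → α → T → M) (S : Set (M × T)),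
      HLE (lset fun w => (blockProd f g 1 w, (w.map f).prod) ∈ S) 1) ∧
    (∀ {α : Type} [Finite α] {T M : Type} [Monoid T] [Finite T] [CommGroup M] [Finite M] (h : ℕ)
      (f : α → T), (∀ x : T, HLE (lset fun w => (w.map f).prod = x) h) →
      ∀ (g : T → α → T → M) (S : Set (M × T)),
      HLE (lset fun w => (blockProd f g 1 w, (w.map f).prod) ∈ S) (h + 1)) :=
  ⟨fun p hp K N _ _ hK hN hQ hpow f S => hle_metabelian_family p hp K N hK hN hQ hpow f S,
    @fun α _ T _ _ _ _ _ hT f g S => hle_block f (fun x => starFree_of_aperiodic (Nat.card T) T le_rfl hT α f x) g S,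
    fun _ f hT g S => hle_block f hT g S⟩

end Vale.Agent.Results.P329.MetabelianElemP
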