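import Vale.Agent.P329.Nilpotent

namespace Vale.Agent.Results.P329.NilpotentFour

open Vale.Agent.P329

theorem result {G : Type} [Group G] [Finite G] :
    (∀ {α : Type} [Finite α], Subgroup.lowerCentralSeries (⊤ : Subgroup G) 3 = ⊥ →
      ∀ (f : α → G) (S : Set G), HLE (lset fun w => (w.map f).prod ∈ S) 1) ∧
    (∀ {α : Type} [Finite α], Subgroup.lowerCentralSeries (⊤ : Subgroup G) 4 = ⊥ →
      (∀ x ∈ commutator G, ∀ y ∈ commutator G, x * y = y * x) →
      ∀ (f : α → G) (S : Set G), HLE (lset fun w => (w.map f).prod ∈ S) 1) ∧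
    (Subgroup.lowerCentralSeries (⊤ : Subgroup G) 4 = ⊥ →
      ∀ (f : Bool → G) (S : Set G), HLE (lset fun w => (w.map f).prod ∈ S) 1) :=
  ⟨fun hG f S => hle_class_four (abelian_of_class_three hG).1 (abelian_of_class_three hG).2 f S,
    fun hG habel f S => hle_class_four hG habel f S,
    fun hG f S => hle_class_four_two_letters hG f S⟩

end Vale.Agent.Results.P329.NilpotentFour
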