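import Vale.Agent.P329.Extension

namespace Vale.Agent.Results.P329.SolvableHeight

open Vale.Agent.P329

theorem result {α : Type} [Finite α] {G : Type} [Group G] [Finite G] :
    (∀ (h : ℕ) (N : Subgroup G) [N.Normal], (∀ a ∈ N, ∀ b ∈ N, a * b = b * a) →
      ∀ f : α → G,
        (∀ T : Set (G ⧸ N), HLE (lset fun w : List α =>
          (w.map fun a => (f a : G ⧸ N)).prod ∈ T) h) →
        ∀ S : Set G, HLE (lset fun w => (w.map f).prod ∈ S) (h + 1)) ∧
    (∀ k : ℕ, Subgroup.lowerCentralSeries (⊤ : Subgroup G) (2 ^ (k + 2) - 1) = ⊥ →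
      ∀ (f : α → G) (S : Set G), HLE (lset fun w => (w.map f).prod ∈ S) (k + 1)) ∧
    (∀ d : ℕ, derivedSeries G d = ⊥ →
      ∀ (f : α → G) (S : Set G), HLE (lset fun w => (w.map f).prod ∈ S) d) :=
  ⟨fun _ N _ hN f hQ S => hle_extension N hN f hQ S,
    fun k hG f S => hle_nilpotent k hG f S, fun d hG f S => hle_solvable d hG f S⟩

end Vale.Agent.Results.P329.SolvableHeight
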