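import Vale.Agent.P329.Sym

namespace Vale.Agent.Results.P329.SymmetricGroup

open Vale.Agent.P329

theorem result : ∀ n : ℕ,
    ∃ φ : FreeMonoid Bool →* Equiv.Perm (Fin (n + 2)), Function.Surjective φ ∧
      HLE (lset fun w => φ (FreeMonoid.ofList w) = 1) 1 ∧
      ∀ u v, (∀ x y, φ (x * u * y) = 1 ↔ φ (x * v * y) = 1) ↔ φ u = φ v :=
  exists_sym_syntactic

end Vale.Agent.Results.P329.SymmetricGroup
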